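import Vale.Agent.P167.H192.Lam.Arc
import Vale.Agent.P167.H685.LD.Ext
import Vale.Agent.P167.H601.M.Ext

/-!
# P167, general `q`, block Q-LAM: the extension of the event at a flat boundary point

`extE`: 601's `ExtE`.
-/

namespace Vale.Agent.P167.LamX

open Finset Relation Vale.Agent.P167.BR Vale.Agent.P167.FK Vale.Agent.P167.FKA
open Vale.Agent.P145.FB (PStep PConn)
open Vale.Agent.P167.E6 (IsPolygon Encloses)
open Vale.Agent.P167.H632 (IncC cs pr le_nm)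
open Vale.Agent.P167.H685.LD (JW Ea Ea_up Ea_congr Ea_far)
open Vale.Agent.P167.H192.TA (Xc Pw dq sr)
open Vale.Agent.P167.H192.Q (SRSW)
open Vale.Agent.P167.H469 (Ks exists_Ks Cn inc_Xc inc_nXc)
open Vale.Agent.P167.H704.Q (prC_inter)

variable {Q : ℝ}

/-- The deterministic part. -/
theorem ea_ext {n k : ℕ} {q : ZMod n → ℤ × ℤ} {D : Finset (ℤ × ℤ)} {R m r' r'' : ℤ} {e : Bool}
    {ω : Cfg} (hq : IsPolygon q) (hD : Encloses q D) (hW : JW q D k R)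
    (hpar : ((q (k : ZMod n)).1 + (q (k : ZMod n)).2) % 2 = pr e) (hm : 1 ≤ m) (hm' : m ≤ r')
    (hr : r' ≤ r'') (hR : r'' + 2 ≤ R) (h0 : ω ∈ Ea e D (q (k : ZMod n)) r')
    (h1 : ω ∉ Xc (!e) (q (k : ZMod n)) m r') (h2 : ω ∈ Xc e (q (k : ZMod n)) m (r'' + 1)) :
    ω ∈ Ea e D (q (k : ZMod n)) r'' := by
  have hlt := hW.lt
  have hgt := hW.gt
  obtain ⟨x, x', x1, x2, x3, x4, x5, x6, x7⟩ := arc_join hm hm' h1
  obtain ⟨y, y', y1, y2, y3, y4, y5⟩ := h2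
  have hy2 : (q (k : ZMod n)).2 ≤ y.2 := by
    simp only [sr, Set.mem_ofPred_eq] at y1
    omega
  have hy' := y4.mem_sr y1
  obtain ⟨y0, z1, z2⟩ := x7 (dq (q (k : ZMod n)) m (r'' + 1)) y y' (fun v hv => by
    simp only [dq, Set.mem_ofPred_eq] at hv
    omega) hy2 y3 (by omega) y2 y4
  -- the indices of the feet
  obtain ⟨c1, d1, d2, d3⟩ := hW.site (t := (x, (q (k : ZMod n)).2)) rfl (by
    dsimp only
    rw [abs_le]
    omega)
  obtain ⟨c2, f1, f2, f3⟩ := hW.site (t := (x', (q (k : ZMod n)).2)) rfl (by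
    dsimp only
    rw [abs_le]
    omega)
  dsimp only at d1 f1
  have hdom : ∀ v : ℤ × ℤ, (q (k : ZMod n)).1 - (r'' + 1) ≤ v.1 → v.1 < (q (k : ZMod n)).1 + (r'' + 1) →
      (q (k : ZMod n)).2 ≤ v.2 → v.2 < (q (k : ZMod n)).2 + (r'' + 1) → v ∈ D := by
    intro v v1 v2 v3 v4
    refine (hW.dom v ?_).2 v3
    rw [H632.nm_le]
    simp only [Prod.fst_sub, Prod.snd_sub]
    omega
  have s1 : cs e ω ∩ dq (q (k : ZMod n)) m r' ⊆ cs e ω ∩ ↑(D ∩ Bq (q (k : ZMod n)) r') := by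
    rintro v ⟨hv1, hv2⟩
    simp only [dq, Set.mem_ofPred_eq] at hv2
    refine ⟨hv1, Finset.mem_coe.2 (Finset.mem_inter.2 ⟨hdom v (by omega) (by omega) (by omega)
      (by omega), ?_⟩)⟩
    rw [H167.Q.mem_Bq]
    omega
  have s2 : cs e ω ∩ dq (q (k : ZMod n)) m r' ⊆ cs e ω ∩ ↑D := by
    rintro v ⟨hv1, hv2⟩
    simp only [dq, Set.mem_ofPred_eq] at hv2
    exact ⟨hv1, Finset.mem_coe.2 (hdom v (by omega) (by omega) (by omega) (by omega))⟩
  have s3 : cs e ω ∩ dq (q (k : ZMod n)) m (r'' + 1) ⊆ cs e ω ∩ ↑D := by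
    rintro v ⟨hv1, hv2⟩
    simp only [dq, Set.mem_ofPred_eq] at hv2
    exact ⟨hv1, Finset.mem_coe.2 (hdom v (by omega) (by omega) (by omega) (by omega))⟩
  refine Ea_far hq hD hW (ρ := r') (r' := r') (r := r'') (c1 := c1) (c2 := c2) (z := y') (by omega)
    le_rfl (by omega) (by omega) hr (by omega) hpar h0 (by omega) (by omega) (by omega) (by omega)
    ?_ ?_ ?_ ?_
  · rw [d2, f2]
    exact pconn (x6.mono s1)
  · rw [d2]
    exact pconn ((z2.symm.mono s2).trans ((z1.symm.mono s3).trans (y4.mono s3)))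
  · rw [d2]
    exact x5
  · rw [le_nm] at y5
    simp only [sr, Set.mem_ofPred_eq] at hy'
    simp only [Prod.fst_sub, Prod.snd_sub] at y5
    omega

/-- **Extension of the event at a flat boundary point.** -/
theorem extE (hQ : 1 ≤ Q) (hR : RSW Q) (hS : SRSW Q) : H601.M.ExtE Q := by
  have hQ0 : 0 < Q := by linarith
  obtain ⟨C⟩ := exists_Ks hQ hR hS
  have hΛ := C.hΛ
  have hc0 := C.hc0
  refine ⟨4, by norm_num, fun E => ?_⟩
  obtain ⟨c, s0, hc, hc1, hs0, hX⟩ := C.cross ((2 * E + 1) * (2 * C.Λ)).toNat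
  have hMn : ((((2 * E + 1) * (2 * C.Λ)).toNat : ℕ) : ℤ) = (2 * E + 1) * (2 * C.Λ) :=
    Int.toNat_of_nonneg (by positivity)
  rw [hMn] at hX
  have hcc1 : C.c0 ≤ 1 := by
    have h1 := C.half true 0 1 le_rfl
    have h2 : 0 ≤ H192.Q.pX Q true 0 1 (C.Λ * 1) := Pr_nonneg hQ0 _
    linarith
  have hcpos : 0 < c * C.c0 := by positivity
  refine ⟨max 2 (C.Λ * s0), 1 / (c * C.c0), by simp, ?_, ?_⟩
  · rw [le_div_iff₀ hcpos, one_mul]
    calc c * C.c0 ≤ 1 * 1 := mul_le_mul hc1 hcc1 hc0.le (by norm_num)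
      _ = 1 := one_mul 1
  intro n q D k R η e hq hD hW hη hpar r' r'' hK hr hE hRR F hF0 hF
  have hr2 : 2 ≤ r' := (le_max_left _ _).trans hK
  have hrs : C.Λ * s0 ≤ r' := (le_max_right _ _).trans hK
  obtain ⟨a, ha⟩ : ∃ a, a = q (k : ZMod n) := ⟨_, rfl⟩
  obtain ⟨m, hm⟩ : ∃ m, m = r' / C.Λ := ⟨_, rfl⟩
  have m1 : s0 ≤ m := by
    rw [hm, Int.le_ediv_iff_mul_le (by omega)]
    linarith
  have m2 : C.Λ * m ≤ r' := by
    rw [hm, mul_comm]
    exact Int.ediv_mul_le _ (by omega)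
  have m3 : r' < C.Λ * (m + 1) := by
    rw [hm, mul_comm]
    exact Int.lt_ediv_add_one_mul_self _ (by omega)
  have m4 : m ≤ C.Λ * m := by nlinarith
  have m5 : r'' + 1 ≤ (2 * E + 1) * (2 * C.Λ) * m := by
    have h1 : r' ≤ 2 * C.Λ * m := by nlinarith
    have h2 : (0 : ℤ) ≤ E := by positivity
    have h3 : (2 * (E : ℤ) + 1) * r' ≤ (2 * E + 1) * (2 * C.Λ * m) :=
      mul_le_mul_of_nonneg_left h1 (by omega)
    nlinarith
  -- the region
  obtain ⟨A, hA⟩ : ∃ A : Finset (ℤ × ℤ), A = D.filter (fun v => nm (v - a) ≤ 4 * r'') := ⟨_, rfl⟩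
  have mA : ∀ v, v ∈ A ↔ v ∈ D ∧ nm (v - a) ≤ 4 * r'' := by
    intro v
    rw [hA, Finset.mem_filter]
  have hAD : A ⊆ D := fun v hv => ((mA v).1 hv).1
  have hCn : Cn A a (2 * (r'' + 1)) := by
    intro v v1 v2 v3 v4
    have h1 : nm (v - a) ≤ 4 * r'' := by
      rw [H632.nm_le]
      simp only [Prod.fst_sub, Prod.snd_sub]
      omega
    refine (mA v).2 ⟨?_, h1⟩
    rw [ha] at h1 v3
    exact (hW.dom v (h1.trans hRR)).2 v3
  -- the events read `A`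
  have hbox : ∀ ρ : ℤ, ρ ≤ r'' → ∀ ω ω' : Cfg, (∀ v ∈ A, ω v = ω' v) →
      (ω ∈ Ea e D a ρ ↔ ω' ∈ Ea e D a ρ) := by
    intro ρ hρ ω ω' h
    refine Ea_congr fun v hv hv' => h v ((mA v).2 ⟨hv, ?_⟩)
    rw [H167.Q.mem_Bq] at hv'
    rw [H632.nm_le]
    simp only [Prod.fst_sub, Prod.snd_sub]
    omega
  -- Markov
  have mark : ∀ ρ : ℤ, ρ ≤ r'' → Ex Q D η (fun ω => (Ea e D a ρ).indicator 1 ω * F ω) =
      Ex Q D η (fun ω => F ω * Pr Q A ω (Ea e D a ρ)) := by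
    intro ρ hρ
    rw [H259.f_markov Q A D η _ hQ0 hAD hη]
    refine Ex_congr fun S _ => ?_
    generalize cf D η S = ω0
    have h1 : Ex Q A ω0 (fun ω => (Ea e D a ρ).indicator 1 ω * F ω) =
        Ex Q A ω0 (fun ω => F ω0 * (Ea e D a ρ).indicator 1 ω) := by
      refine Ex_congr fun T _ => ?_
      have h2 : F (cf A ω0 T) = F ω0 := by
        refine hF _ _ fun v hv => ?_
        rw [cf_out]
        intro hvA
        apply hv
        rw [← ha]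
        exact (mA v).1 hvA
      rw [h2, mul_comm]
    rw [h1, Ex_mul_left]
    rfl
  rw [← ha, mark r' hr, mark r'' le_rfl, ← Ex_mul_left]
  refine Ex_mono hQ0 fun S _ => ?_
  have hω0 : Good (cf D η S) := f_good.1 _ _ _ hη
  generalize cf D η S = ω0 at hω0
  have hp0 : 0 ≤ Pr Q A ω0 (Ea e D a r') := Pr_nonneg hQ0 _
  have incE : ∀ ρ, IncC e (Ea e D a ρ) := by
    intro ρ ω ω' h hω
    refine Ea_up (fun v _ _ h2 => ?_) hω
    exact h v h2
  have k1 := hX e a m (r'' + 1) A ω0 m1 (by omega) m5 hω0 hCn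
  have k2 := C.half_ge (e := e) (b := a) (D := A) (by omega : 1 ≤ m) m2 hω0
    (hCn.mono (by omega))
  have k3 := prC_inter (D := A) C.hQ hω0 (inc_Xc e a m (r'' + 1)) (inc_nXc e a m r')
  have k4 := prC_inter (D := A) C.hQ hω0 (incE r')
    ((inc_Xc e a m (r'' + 1)).inter (inc_nXc e a m r'))
  have k5 : Pr Q A ω0 (Ea e D a r' ∩ (Xc e a m (r'' + 1) ∩ (Xc (!e) a m r')ᶜ)) ≤
      Pr Q A ω0 (Ea e D a r'') := by
    refine Pr_mono hQ0 ?_
    rintro ω ⟨w1, w2, w3⟩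
    rw [ha] at w1 w2 w3 ⊢
    exact ea_ext hq hD hW hpar (by omega) (by omega) hr (by omega) w1 w3 w2
  have k6 : c * C.c0 ≤ Pr Q A ω0 (Xc e a m (r'' + 1)) * Pr Q A ω0 (Xc (!e) a m r')ᶜ :=
    mul_le_mul k1 k2 hc0.le (Pr_nonneg hQ0 _)
  have k7 : c * C.c0 * Pr Q A ω0 (Ea e D a r') ≤ Pr Q A ω0 (Ea e D a r'') := by
    nlinarith [mul_le_mul_of_nonneg_left (k6.trans k3) hp0]
  have k8 : Pr Q A ω0 (Ea e D a r') ≤ 1 / (c * C.c0) * Pr Q A ω0 (Ea e D a r'') := by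
    rw [one_div, ← div_eq_inv_mul, le_div_iff₀ hcpos]
    linarith
  calc F ω0 * Pr Q A ω0 (Ea e D a r')
      ≤ F ω0 * (1 / (c * C.c0) * Pr Q A ω0 (Ea e D a r'')) :=
        mul_le_mul_of_nonneg_left k8 (hF0 _)
    _ = _ := by ring

end Vale.Agent.P167.LamX
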