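import Vale.Agent.P167.H469.BArm
import Vale.Agent.P167.H192.TA.Arc2

/-!
# P167, general `q`, block Q-LAM: half circuits and the paths which cross them

`arc_join`: if there is no crossing of the half annulus by the colour `!e`, there is a path of the colour
`e` around the point from the left to the right, and every path of colour `e` from the inside to the
outside is joined to it.
-/

namespace Vale.Agent.P167.LamX

open Relation Vale.Agent.P167.FK Vale.Agent.P167.FKA
open Vale.Agent.P145.FB (PStep PConn)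
open Vale.Agent.P153.Topo (Rect mem_rect)
open Vale.Agent.P167.H632 (IncC cs pr nm_le le_nm cs_compl pr_not pr_or)
open Vale.Agent.P167.H192.TA (Xc Pw dq sr cut_dq arc_full)
open Vale.Agent.P167.H469 (join_half)

variable {e : Bool} {a : ℤ × ℤ} {m m' : ℤ} {ω : Cfg}

/-- A half circuit which is joined to all the paths from the inside to the outside. -/
theorem arc_join (hm : 1 ≤ m) (hm' : m ≤ m') (h : ω ∉ Xc (!e) a m m') :
    ∃ x x', a.1 - m' ≤ x ∧ x ≤ a.1 - m ∧ a.1 + m ≤ x' ∧ x' ≤ a.1 + m' ∧ (x + a.2) % 2 = pr e ∧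
      Pw (cs e ω ∩ dq a m m') (x, a.2) (x', a.2) ∧
      ∀ (G : Set (ℤ × ℤ)) (y y' : ℤ × ℤ), (∀ v ∈ G, a.2 ≤ v.2) → a.2 ≤ y.2 → nm (y - a) ≤ m →
        m' ≤ nm (y' - a) → (y.1 + y.2) % 2 = pr e → Pw (cs e ω ∩ G) y y' →
        ∃ y0, Pw (cs e ω ∩ G) y y0 ∧ Pw (cs e ω ∩ dq a m m') y0 (x, a.2) := by
  have hp : 1 - pr (!e) = pr e := by rw [pr_not]; ring
  obtain ⟨x, x', x1, x2, x3, x4, x5, x6⟩ := arc_full (F := cs (!e) ω) (b := a) (r := m) (R := m')
    (e := pr (!e)) (pr_or _) hm hm' (fun y y' hy hye hyr hyy' => by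
      by_contra hc
      exact h ⟨y, y', hy, hye, hyr, hyy', by omega⟩)
  rw [cs_compl, Bool.not_not] at x6
  rw [hp] at x5
  refine ⟨x, x', x1, x2, x3, x4, x5, x6, fun G y y' hG hy hyr hy' hye hyy' => ?_⟩
  obtain ⟨y0, y1, a1, a2, a3, a4, a5⟩ := cut_dq (G := cs e ω ∩ G) hm' hy
    (fun v hv => hG v hv.2) hyy' hyr hy'
  have hpsr : ((x, a.2) : ℤ × ℤ) ∈ sr a m m' := by
    simp only [sr, Set.mem_ofPred_eq]
    omega
  exact ⟨y0, a1, join_half (F := cs e ω) (e := pr e) (p := (x, a.2)) (q := (x', a.2)) (pr_or _) hm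
    hm' a2 a3 a5 (by rw [← a1.parity, hye])
    (a4.mono (Set.inter_subset_inter_left _ Set.inter_subset_left)) hpsr x2 rfl x5 x3 rfl x6⟩

theorem pconn {G : Set (ℤ × ℤ)} {s t : ℤ × ℤ} (h : Pw G s t) : PConn G Set.univ s t := by
  induction h with
  | refl => exact PConn.refl (Set.mem_univ _)
  | tail _ h ih => exact ih.tail h (Set.mem_univ _)

end Vale.Agent.P167.LamX
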